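import Mathlib

/-!
# P207, the smooth case: the area of a parametrised piece of the sphere
-/

open Set Filter Topology Metric MeasureTheory
open scoped ENNReal Pointwise

noncomputable section

namespace Vale.Agent.P207Z.SC.Pol

abbrev Eu (n : ℕ) : Type := EuclideanSpace ℝ (Fin n)

variable {m : ℕ}

/-- the last coordinates -/
def tl : Eu (m + 1) →L[ℝ] Eu m :=
  LinearMap.toContinuousLinearMap
    { toFun := fun z => WithLp.toLp 2 fun i => z i.succ
      map_add' := fun _ _ => rfl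
      map_smul' := fun _ _ => rfl }

theorem tl_apply (z : Eu (m + 1)) (i : Fin m) : tl z i = z i.succ := rfl

/-- the first coordinate -/
def hd : Eu (m + 1) →L[ℝ] ℝ := EuclideanSpace.proj 0

theorem hd_apply (z : Eu (m + 1)) : hd z = z 0 := rfl

/-- the point with given coordinates -/
def pk (r : ℝ) (u : Eu m) : Eu (m + 1) := WithLp.toLp 2 (Fin.cons r fun i => u i)

@[simp] theorem hd_pk (r : ℝ) (u : Eu m) : hd (pk r u) = r := rfl
@[simp] theorem tl_pk (r : ℝ) (u : Eu m) : tl (pk r u) = u := rfl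

theorem ext_hd_tl {z z' : Eu (m + 1)} (h : hd z = hd z') (h' : tl z = tl z') : z = z' := by
  ext i
  refine Fin.cases h (fun i => ?_) i
  rw [← tl_apply, ← tl_apply, h']

/-- the linear map with the first column `a` -/
def cj (a : Eu (m + 1)) (T : Eu m →L[ℝ] Eu (m + 1)) : Eu (m + 1) →L[ℝ] Eu (m + 1) :=
  hd.smulRight a + T ∘L tl

theorem cj_apply (a : Eu (m + 1)) (T : Eu m →L[ℝ] Eu (m + 1)) (z : Eu (m + 1)) :
    cj a T z = hd z • a + T (tl z) := rfl

/-- the standard basis -/
abbrev eb (n : ℕ) : Module.Basis (Fin n) ℝ (Eu n) := (EuclideanSpace.basisFun (Fin n) ℝ).toBasis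

theorem det_frame (c : Fin m → Eu m) :
    (eb (m + 1)).det (Fin.cons (pk 1 0) fun i => pk 0 (c i) : Fin (m + 1) → Eu (m + 1)) =
      (Matrix.of fun i j => c i j).det := by
  rw [Module.Basis.det_apply, ← Matrix.det_transpose, Matrix.det_succ_column_zero,
    Fin.sum_univ_succ]
  have h0 : ∀ i : Fin m, ((eb (m + 1)).toMatrix
      (Fin.cons (pk 1 0) fun i => pk 0 (c i) : Fin (m + 1) → Eu (m + 1))).transpose i.succ 0 = 0 :=
    fun i => by simp [Module.Basis.toMatrix_apply, pk]
  simp only [h0, mul_zero, zero_mul, Finset.sum_const_zero, add_zero]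
  have h1 : ((eb (m + 1)).toMatrix
      (Fin.cons (pk 1 0) fun i => pk 0 (c i) : Fin (m + 1) → Eu (m + 1))).transpose 0 0 = 1 := by
    simp [Module.Basis.toMatrix_apply, pk]
  rw [h1]
  simp only [Fin.val_zero, pow_zero, one_mul]
  congr 1

/-- the determinant, tested on a frame -/
theorem det_cj (a : Eu (m + 1)) (T : Eu m →L[ℝ] Eu (m + 1)) (c : Fin m → Eu m) :
    (cj a T).det * (Matrix.of fun i j => c i j).det =
      (eb (m + 1)).det (Fin.cons a fun i => T (c i) : Fin (m + 1) → Eu (m + 1)) := by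
  rw [← det_frame, ContinuousLinearMap.det, ← Module.Basis.det_comp]
  congr 1
  funext i
  refine Fin.cases ?_ (fun i => ?_) i
  · simp [cj_apply]
  · simp [cj_apply]

theorem det_scale (b : Fin (m + 1) → Eu (m + 1)) (r : Fin m → ℝ) :
    (eb (m + 1)).det (Fin.cons (b 0) fun i => r i • b i.succ : Fin (m + 1) → Eu (m + 1)) =
      (∏ i, r i) * (eb (m + 1)).det b := by
  have := (eb (m + 1)).det.toMultilinearMap.map_smul_univ (Fin.cons 1 r : Fin (m + 1) → ℝ) b
  rw [Fin.prod_univ_succ] at this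
  simp only [Fin.cons_zero, Fin.cons_succ, one_mul, smul_eq_mul,
    AlternatingMap.coe_multilinearMap] at this
  rw [← this]
  congr 1
  funext i
  refine Fin.cases ?_ (fun i => ?_) i <;> simp

theorem det_cj_smul (a : Eu (m + 1)) (T : Eu m →L[ℝ] Eu (m + 1)) (r : ℝ) :
    (cj a (r • T)).det = r ^ m * (cj a T).det := by
  have h1 := det_cj a (r • T) fun i => EuclideanSpace.single i 1
  have h2 := det_cj a T fun i => EuclideanSpace.single i 1
  have h0 : (Matrix.of fun i j : Fin m => (EuclideanSpace.single i (1 : ℝ) : Eu m) j) = 1 := by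
    ext i j
    simp [Matrix.one_apply, eq_comm]
  rw [h0, Matrix.det_one, mul_one] at h1 h2
  have h3 := det_scale (Fin.cons a fun i => T (EuclideanSpace.single i 1)) fun _ => r
  simp only [Fin.cons_zero, Fin.cons_succ, Finset.prod_const, Finset.card_univ,
    Fintype.card_fin] at h3
  rw [h1, h2, ← h3]
  rfl

theorem mp_split : MeasurePreserving (fun z : Eu (m + 1) => (hd z, tl z)) volume
    ((volume : Measure ℝ).prod (volume : Measure (Eu m))) := by
  have h1 := PiLp.volume_preserving_ofLp (Fin (m + 1))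
  have h2 := volume_preserving_piFinSuccAbove (fun _ : Fin (m + 1) => ℝ) 0
  have h3 := (MeasurePreserving.id (volume : Measure ℝ)).prod (PiLp.volume_preserving_toLp (Fin m))
  exact h3.comp (h2.comp h1)

theorem lintegral_pow : ((m + 1 : ℕ) : ℝ≥0∞) * ∫⁻ r in Ioo (0 : ℝ) 1, ENNReal.ofReal (r ^ m) = 1 := by
  have hint : IntegrableOn (fun a : ℝ => a ^ m) (Ioo 0 1) volume := by
    have : Continuous fun a : ℝ => a ^ m := by fun_prop
    exact (this.integrableOn_Icc).mono_set Ioo_subset_Icc_self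
  have hnn : 0 ≤ᵐ[volume.restrict (Ioo (0 : ℝ) 1)] fun a : ℝ => a ^ m :=
    (ae_restrict_iff' measurableSet_Ioo).2 (Eventually.of_forall fun a ha => pow_nonneg ha.1.le _)
  rw [← ofReal_integral_eq_lintegral_ofReal hint hnn, ← integral_Ioc_eq_integral_Ioo,
    ← intervalIntegral.integral_of_le zero_le_one, integral_pow, ← ENNReal.ofReal_natCast,
    ← ENNReal.ofReal_mul (by positivity)]
  rw [← ENNReal.ofReal_one]
  congr 1
  push_cast
  field_simp
  simp

/-- the area of a piece of the sphere -/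
theorem cone {g : Eu m → Eu (m + 1)} {g' : Eu m → Eu m →L[ℝ] Eu (m + 1)} {U : Set (Eu m)}
    (hU : MeasurableSet U) (hg : ∀ u ∈ U, HasFDerivAt g (g' u) u) (hi : InjOn g U)
    (hn : ∀ u ∈ U, ‖g u‖ = 1) {J : Eu m → ℝ≥0∞} (hJ : AEMeasurable J (volume.restrict U))
    (hJ' : ∀ u ∈ U, J u = ENNReal.ofReal |(cj (g u) (g' u)).det|)
    {s : Set (sphere (0 : Eu (m + 1)) 1)} (hs : MeasurableSet s) (he : (↑) '' s = g '' U) :
    (volume : Measure (Eu (m + 1))).toSphere s = ∫⁻ u in U, J u := by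
  set D : Set (Eu (m + 1)) := (fun z => (hd z, tl z)) ⁻¹' (Ioo (0 : ℝ) 1 ×ˢ U) with hD
  have hDm : MeasurableSet D := mp_split.measurable (measurableSet_Ioo.prod hU)
  have h1 : Ioo (0 : ℝ) 1 • (g '' U) = (fun z => hd z • g (tl z)) '' D := by
    ext y
    constructor
    · rintro ⟨r, hr, _, ⟨u, hu, rfl⟩, rfl⟩
      exact ⟨pk r u, ⟨hr, hu⟩, rfl⟩
    · rintro ⟨z, hz, rfl⟩
      exact ⟨hd z, hz.1, _, ⟨tl z, hz.2, rfl⟩, rfl⟩
  have h2 : ∀ z ∈ D, HasFDerivWithinAt (fun z => hd z • g (tl z))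
      (cj (g (tl z)) (hd z • g' (tl z))) D z := by
    intro z hz
    have a1 := (hg _ hz.2).comp z (tl (m := m)).hasFDerivAt
    have a2 := (hd (m := m)).hasFDerivAt.smul a1 (x := z)
    refine (a2.congr_fderiv ?_).hasFDerivWithinAt
    refine ContinuousLinearMap.ext fun w => ?_
    rw [cj_apply]
    exact add_comm _ _
  have h3 : InjOn (fun z => hd z • g (tl z)) D := by
    intro z hz z' hz' h
    have a1 : hd z = hd z' := by
      have := congrArg norm h
      simp only [norm_smul, hn _ hz.2, hn _ hz'.2, mul_one, Real.norm_eq_abs] at this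
      rwa [abs_of_pos hz.1.1, abs_of_pos hz'.1.1] at this
    refine ext_hd_tl a1 (hi hz.2 hz'.2 ?_)
    simp only [a1] at h
    exact smul_right_injective _ hz'.1.1.ne' h
  rw [Measure.toSphere_apply' _ hs, he, h1,
    ← lintegral_abs_det_fderiv_eq_addHaar_image volume hDm h2 h3]
  have h4 : ∫⁻ z in D, ENNReal.ofReal |(cj (g (tl z)) (hd z • g' (tl z))).det| =
      ∫⁻ z in D, (fun p : ℝ × Eu m => ENNReal.ofReal (p.1 ^ m) * J p.2) (hd z, tl z) := by
    refine setLIntegral_congr_fun hDm fun z hz => ?_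
    have h0 : 0 ≤ hd z ^ m := pow_nonneg hz.1.1.le _
    simp only []
    rw [det_cj_smul, abs_mul, abs_of_nonneg h0, ENNReal.ofReal_mul h0, hJ' _ hz.2]
  have h5 := (mp_split (m := m)).restrict_preimage (measurableSet_Ioo (a := (0 : ℝ)) (b := 1)
    |>.prod hU)
  have h6 : AEMeasurable (fun r : ℝ => ENNReal.ofReal (r ^ m)) (volume.restrict (Ioo (0 : ℝ) 1)) := by
    fun_prop
  rw [← Measure.prod_restrict] at h5
  have h7 : AEMeasurable (fun p : ℝ × Eu m => ENNReal.ofReal (p.1 ^ m) * J p.2)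
      (((volume : Measure ℝ).restrict (Ioo 0 1)).prod (volume.restrict U)) :=
    h6.comp_fst.mul hJ.comp_snd
  have h8 := lintegral_map' (h5.map_eq ▸ h7) h5.aemeasurable
  rw [h5.map_eq, lintegral_prod_mul h6 hJ] at h8
  rw [h4, ← h8, ← mul_assoc, finrank_euclideanSpace_fin, lintegral_pow, one_mul]

end Vale.Agent.P207Z.SC.Pol
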