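import Vale.Agent.P207Z.Sm.Defs

/-!
# P207, the smooth case: the orthonormal basis of `𝔭`
-/

open Set

set_option linter.unusedSectionVars false

noncomputable section

namespace Vale.Agent.P207Z.SC.Pol

variable {G : Type} [NormedAddCommGroup G] [NormedSpace ℝ G] [FiniteDimensional ℝ G] (A : LA G)

theorem br_self (a : G) : A.br a a = 0 := by
  have h := A.anti a a
  rw [eq_neg_iff_add_eq_zero, ← two_smul ℝ, smul_eq_zero] at h
  exact h.resolve_left two_ne_zero

/-- the adjoint map -/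
def ad : G →ₗ[ℝ] G →ₗ[ℝ] G where
  toFun a := (A.br a : G →ₗ[ℝ] G)
  map_add' a b := by rw [map_add]; rfl
  map_smul' r a := by rw [map_smul]; rfl

theorem ad_apply (a b : G) : ad A a b = A.br a b := rfl

theorem kil_eq (a b : G) : A.kil a b = LinearMap.trace ℝ G (ad A a * ad A b) := rfl

theorem ad_br (a b : G) : ad A (A.br a b) = ad A a * ad A b - ad A b * ad A a := by
  ext c
  simp only [LinearMap.sub_apply, Module.End.mul_apply, ad_apply]
  rw [A.jac a b c]
  abel

theorem kil_symm (a b : G) : A.kil a b = A.kil b a := by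
  rw [kil_eq, kil_eq, LinearMap.trace_mul_comm]

theorem kil_br (a b c : G) : A.kil (A.br a b) c = -A.kil b (A.br a c) := by
  rw [kil_eq, kil_eq, ad_br, ad_br, sub_mul, mul_sub, map_sub, map_sub, mul_assoc, mul_assoc,
    LinearMap.trace_mul_comm ℝ (ad A a), mul_assoc]
  ring

theorem kil_aut {g : G ≃L[ℝ] G} (hg : A.IsAut g) (a b : G) : A.kil (g a) (g b) = A.kil a b := by
  rw [kil_eq, kil_eq, ← LinearMap.trace_conj' (ad A a * ad A b) g.toLinearEquiv]
  congr 1
  ext c
  obtain ⟨c, rfl⟩ := g.surjective c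
  simp [LinearEquiv.conj_apply, ad_apply, hg _ _]

variable {n : ℕ} (lam : Fin n → ℝ) (θ : G ≃L[ℝ] G)

/-- the scalar product as a bilinear map -/
def ipL : G →ₗ[ℝ] G →ₗ[ℝ] ℝ :=
  LinearMap.mk₂ ℝ (A.ip lam θ)
    (fun a a' b => by simp only [LA.ip, kil_eq, map_add, add_mul]; ring)
    (fun r a b => by simp only [LA.ip, kil_eq, map_smul, smul_mul_assoc, smul_eq_mul]; ring)
    (fun a b b' => by simp only [LA.ip, kil_eq, map_add, mul_add]; ring)
    (fun r a b => by simp only [LA.ip, kil_eq, map_smul, mul_smul_comm, smul_eq_mul]; ring)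

theorem ipL_apply (a b : G) : ipL A lam θ a b = A.ip lam θ a b := rfl

variable {A lam θ} {v : G} {Y : Fin n → G} (h : A.Frame lam θ v Y)
include h

theorem ip_symm (a b : G) : ipL A lam θ a b = ipL A lam θ b a := by
  simp only [ipL_apply, LA.ip]
  rw [← kil_aut A h.aut, h.inv, kil_symm]

theorem ip_theta (a b : G) : ipL A lam θ (θ a) (θ b) = ipL A lam θ a b := by
  simp only [ipL_apply, LA.ip]
  rw [kil_aut A h.aut]

theorem br_theta (b : G) : A.br v (θ b) = -θ (A.br v b) := by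
  rw [h.aut, h.neg, map_neg, neg_apply, neg_neg]

theorem ip_br (a b : G) : ipL A lam θ (A.br v a) b = ipL A lam θ a (A.br v b) := by
  simp only [ipL_apply, LA.ip]
  rw [kil_br, br_theta h]
  simp only [kil_eq, map_neg, mul_neg, neg_neg]

theorem eig_theta (i : Fin n) : A.br v (θ (Y i)) = -lam i • θ (Y i) := by
  rw [br_theta h, h.eig, map_smul, neg_smul]

theorem ip_Y_theta (i j : Fin n) : ipL A lam θ (Y i) (θ (Y j)) = 0 := by
  have := ip_br h (Y i) (θ (Y j))
  rw [h.eig, eig_theta h, map_smul, map_smul, LinearMap.smul_apply, smul_eq_mul,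
    smul_eq_mul] at this
  have h1 := h.lam_pos i
  have h2 := h.lam_pos j
  have h3 : (lam i + lam j) * ipL A lam θ (Y i) (θ (Y j)) = 0 := by linarith
  exact (mul_eq_zero.1 h3).resolve_left (by positivity)

theorem ip_v_Y (i : Fin n) : ipL A lam θ v (Y i) = 0 := by
  have := ip_br h v (Y i)
  rw [h.eig, br_self, map_zero, map_smul, LinearMap.zero_apply, smul_eq_mul] at this
  exact (mul_eq_zero.1 this.symm).resolve_left (h.lam_pos i).ne'

theorem ip_v_theta (i : Fin n) : ipL A lam θ v (θ (Y i)) = 0 := by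
  rw [← ip_theta h, h.inv, h.neg, map_neg, LinearMap.neg_apply, ip_v_Y h, neg_zero]

omit h in
variable (θ v Y) in
/-- the orthonormal basis of `𝔭` -/
def pb : Fin (n + 1) → G := Fin.cons v fun i => (Real.sqrt 2)⁻¹ • (Y i - θ (Y i))

theorem pb_neg (i : Fin (n + 1)) : θ (pb θ v Y i) = -pb θ v Y i := by
  refine Fin.cases h.neg (fun i => ?_) i
  simp only [pb, Fin.cons_succ, map_smul, map_sub, h.inv]
  rw [← smul_neg, neg_sub]

theorem pb_on (i j : Fin (n + 1)) :
    ipL A lam θ (pb θ v Y i) (pb θ v Y j) = if i = j then 1 else 0 := by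
  have h0 : ∀ j : Fin n, ipL A lam θ (pb θ v Y 0) (pb θ v Y j.succ) = 0 := fun j => by
    simp only [pb, Fin.cons_succ, Fin.cons_zero, map_smul, map_sub, ip_v_Y h, ip_v_theta h,
      sub_self, smul_zero]
  refine Fin.cases (Fin.cases ?_ (fun j => ?_) j) (fun i => Fin.cases ?_ (fun j => ?_) j) i
  · rw [if_pos rfl]
    exact h.unit
  · rw [h0, if_neg (Fin.succ_ne_zero j).symm]
  · rw [ip_symm h, h0, if_neg (Fin.succ_ne_zero i)]
  · have h1 : ipL A lam θ (θ (Y i)) (Y j) = 0 := by rw [ip_symm h, ip_Y_theta h]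
    have h2 : ipL A lam θ (Y i) (Y j) = if i = j then 1 else 0 := h.on i j
    simp only [pb, Fin.cons_succ, map_smul, map_sub, LinearMap.smul_apply, LinearMap.sub_apply,
      ip_theta h, ip_Y_theta h, h1, h2, smul_eq_mul, Fin.succ_inj]
    have h3 : Real.sqrt 2 * Real.sqrt 2 = 2 := Real.mul_self_sqrt (by norm_num)
    have h4 : Real.sqrt 2 ≠ 0 := by positivity
    split_ifs
    · field_simp
      nlinarith
    · simp

theorem pb_span {Z : G} (hZ : θ Z = -Z) : ∃ c : Fin (n + 1) → ℝ, Z = ∑ i, c i • pb θ v Y i := by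
  obtain ⟨Z₀, s, t, h0, h1⟩ := h.dec Z
  have h2 := h.zero Z₀ h0
  set a := A.ip lam θ v Z₀
  refine ⟨Fin.cons a fun i => Real.sqrt 2 * ((s i - t i) / 2), ?_⟩
  have h4 : Real.sqrt 2 ≠ 0 := by positivity
  have h3 : ∀ i : Fin n, (Real.sqrt 2 * ((s i - t i) / 2)) • pb θ v Y i.succ =
      (1 / 2 : ℝ) • ((s i • Y i + t i • θ (Y i)) - (s i • θ (Y i) + t i • Y i)) := fun i => by
    simp only [pb, Fin.cons_succ, smul_smul]
    rw [mul_comm (Real.sqrt 2), mul_assoc, mul_inv_cancel₀ h4]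
    module
  rw [Fin.sum_univ_succ]
  simp only [Fin.cons_zero, Fin.cons_succ, h3, ← Finset.smul_sum, Finset.sum_sub_distrib,
    Finset.sum_add_distrib]
  have h5 : θ Z = θ Z₀ + ∑ i, s i • θ (Y i) + ∑ i, t i • Y i := by
    conv_lhs => rw [h1]
    simp only [map_add, map_sum, map_smul, h.inv]
  rw [map_sub, map_smul, h.neg] at h2
  have h6 : θ Z₀ = Z₀ - a • v - a • v := by
    rw [← h2]
    module
  have h7 : Z = (1 / 2 : ℝ) • (Z - θ Z) := by
    rw [hZ]
    module
  rw [h7, h5, h6]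
  conv_lhs => rw [h1]
  change _ = a • v + _
  module

theorem ip_pb (c : Fin (n + 1) → ℝ) (i : Fin (n + 1)) :
    ipL A lam θ (pb θ v Y i) (∑ j, c j • pb θ v Y j) = c i := by
  simp [map_sum, map_smul, pb_on h]

theorem exists_j : ∃ j : G →L[ℝ] EuclideanSpace ℝ (Fin (n + 1)), ∀ Z Z', θ Z = -Z → θ Z' = -Z' →
    inner ℝ (j Z) (j Z') = A.ip lam θ Z Z' := by
  refine ⟨LinearMap.toContinuousLinearMap
    { toFun := fun Z => WithLp.toLp 2 fun i => ipL A lam θ (pb θ v Y i) Z
      map_add' := fun a b => by ext i; simp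
      map_smul' := fun r a => by ext i; simp }, fun Z Z' hZ hZ' => ?_⟩
  obtain ⟨c, rfl⟩ := pb_span h hZ
  rw [← ipL_apply, map_sum (ipL A lam θ), LinearMap.sum_apply, PiLp.inner_apply]
  refine Finset.sum_congr rfl fun i _ => ?_
  simp only [LinearMap.coe_toContinuousLinearMap', LinearMap.coe_mk, AddHom.coe_mk, ip_pb h,
    map_smul, LinearMap.smul_apply, smul_eq_mul, RCLike.inner_apply, conj_trivial]
  ring

variable {j : G →L[ℝ] EuclideanSpace ℝ (Fin (n + 1))}
  (hj : ∀ Z Z', θ Z = -Z → θ Z' = -Z' → inner ℝ (j Z) (j Z') = A.ip lam θ Z Z')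
include hj

theorem exists_onb : ∃ b : OrthonormalBasis (Fin (n + 1)) ℝ (EuclideanSpace ℝ (Fin (n + 1))),
    ∀ i, b i = j (pb θ v Y i) := by
  have h1 : Orthonormal ℝ fun i => j (pb θ v Y i) := by
    rw [orthonormal_iff_ite]
    intro i i'
    rw [hj _ _ (pb_neg h i) (pb_neg h i'), ← ipL_apply, pb_on h]
  have h2 : Fintype.card (Fin (n + 1)) = Module.finrank ℝ (EuclideanSpace ℝ (Fin (n + 1))) := by
    simp
  refine ⟨(basisOfOrthonormalOfCardEqFinrank h1 h2).toOrthonormalBasis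
    (by rw [coe_basisOfOrthonormalOfCardEqFinrank]; exact h1), fun i => ?_⟩
  simp

theorem j_inj {Z : G} (hZ : θ Z = -Z) (h0 : j Z = 0) : Z = 0 := by
  by_contra hne
  have := h.pos Z hne
  rw [← hj _ _ hZ hZ, h0, inner_zero_left] at this
  exact lt_irrefl _ this

theorem j_surj (y : EuclideanSpace ℝ (Fin (n + 1))) : ∃ Z, θ Z = -Z ∧ j Z = y := by
  obtain ⟨b, hb⟩ := exists_onb h hj
  refine ⟨∑ i, b.repr y i • pb θ v Y i, ?_, ?_⟩
  · simp only [map_sum, map_smul, pb_neg h, smul_neg, Finset.sum_neg_distrib]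
  · simp only [map_sum, map_smul, ← hb]
    exact b.sum_repr y

end Vale.Agent.P207Z.SC.Pol
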